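import Vale.Agent.P148.R2.H184.L3
import Vale.Agent.P148.R2.H995.Hole
import Vale.Agent.P148.R2.H995.Loc

/-!
# Outer confinement of strands (P148, row CONF)

If no path of one colour crosses the square annulus `r ≤ |z - p| ≤ 3 r`, then every strand which
starts inside is a loop which is local in the big square.
-/

open Set Metric Function
open P148 P148.H729

namespace Vale.Agent.P148.R2.H664

open H592 H184 H995 H990

section strand

variable {X : Set ℂ} {b : ZMod 3 → ℂ} (h : HullTri X b) {V : Type*} (π : ℂ → V) (hπ : Fib X π)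

include h in
theorem nbr_apex_tail (q : Fc X b × ZMod 3) : nbr X (dt q).1 (dt q).2.2 :=
  nbr_symm (h.Tl_nbr (HullTri.Tl_rot (HullTri.Tl_rot (th_Tl q))))

include h in
theorem nbr_head_apex (q : Fc X b × ZMod 3) : nbr X (dt q).2.1 (dt q).2.2 :=
  h.Tl_nbr (HullTri.Tl_rot (th_Tl q))

/-- One step of a strand: the tails. -/
theorem step_tail {σ : V → Bool} {q : Fc X b × ZMod 3} (hq : (h.tri258 π hπ).Bi σ q) :
    ((dt q).1 = (dt ((h.tri258 π hπ).st σ q)).1 ∨
      nbr X (dt q).1 (dt ((h.tri258 π hπ).st σ q)).1) ∧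
    pc π σ (dt ((h.tri258 π hπ).st σ q)).1 = pc π σ (dt q).1 := by
  obtain ⟨h1, h2, -⟩ := nx_st h π hπ hq
  by_cases hc : pc π σ (dt q).2.2 = pc π σ (dt q).1
  · rw [if_pos hc] at h2
    rw [h2]
    exact ⟨Or.inr (nbr_apex_tail h q), hc⟩
  · rw [if_neg hc] at h2
    rw [h2]
    exact ⟨Or.inl rfl, rfl⟩

/-- One step of a strand: the heads. -/
theorem step_head {σ : V → Bool} {q : Fc X b × ZMod 3} (hq : (h.tri258 π hπ).Bi σ q) :
    ((dt q).2.1 = (dt ((h.tri258 π hπ).st σ q)).2.1 ∨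
      nbr X (dt q).2.1 (dt ((h.tri258 π hπ).st σ q)).2.1) ∧
    pc π σ (dt ((h.tri258 π hπ).st σ q)).2.1 = pc π σ (dt q).2.1 := by
  obtain ⟨h1, -, h2⟩ := nx_st h π hπ hq
  by_cases hc : pc π σ (dt q).2.2 = pc π σ (dt q).1
  · rw [if_pos hc] at h2
    rw [h2]
    exact ⟨Or.inl rfl, rfl⟩
  · rw [if_neg hc] at h2
    rw [h2]
    refine ⟨Or.inr (nbr_head_apex h q), ?_⟩
    revert h1 hc
    cases pc π σ (dt q).2.2 <;> cases pc π σ (dt q).2.1 <;> cases pc π σ (dt q).1 <;> simp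

theorem colour_tail {σ : V → Bool} {q : Fc X b × ZMod 3} (hq : (h.tri258 π hπ).Bi σ q) (k : ℕ) :
    pc π σ (dt (((h.tri258 π hπ).st σ)^[k] q)).1 = pc π σ (dt q).1 := by
  induction k with
  | zero => rfl
  | succ k ih =>
    rw [iterate_succ', comp_apply, (step_tail h π hπ (((h.tri258 π hπ).bi_iter k).2 hq)).2, ih]

theorem colour_head {σ : V → Bool} {q : Fc X b × ZMod 3} (hq : (h.tri258 π hπ).Bi σ q) (k : ℕ) :
    pc π σ (dt (((h.tri258 π hπ).st σ)^[k] q)).2.1 = pc π σ (dt q).2.1 := by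
  induction k with
  | zero => rfl
  | succ k ih =>
    rw [iterate_succ', comp_apply, (step_head h π hπ (((h.tri258 π hπ).bi_iter k).2 hq)).2, ih]

/-- The points of colour `c`. -/
def colS (X : Set ℂ) (π : ℂ → V) (σ : V → Bool) (c : Bool) : Set ℂ := {z | z ∈ X ∧ pc π σ z = c}

variable {p : ℂ} {r ρ : ℝ}

/-- A chain which leaves gives an arm. -/
theorem arm_of_chain {σ : V → Bool} {c : Bool} {v : ℕ → ℂ} {k : ℕ}
    (hv : ∀ i < k, v i = v (i + 1) ∨ nbr X (v i) (v (i + 1)))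
    (hc : ∀ i ≤ k, v i ∈ colS X π σ c) (h0 : nsup (v 0 - p) ≤ r)
    (h1 : 3 * r ≤ nsup (v k - p)) : SqArm (nbr X) (colS X π σ c) p r (3 * r) := by
  obtain ⟨m, w, w1, w2, w3, w4⟩ := exists_path_of_chain (rel := nbr X) hv
  refine ⟨m, w, w1, fun i hi => ?_, by rw [w2]; exact h0, by rw [w3]; exact h1⟩
  obtain ⟨j, hj, hj'⟩ := w4 i hi
  rw [hj']
  exact hc j hj

include h in
theorem dt_mem (q : Fc X b × ZMod 3) : (dt q).1 ∈ X ∧ (dt q).2.1 ∈ X ∧ (dt q).2.2 ∈ X := by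
  have h1 := nbr_apex_tail h q
  have h2 := nbr_head_apex h q
  exact ⟨h1.1, h2.1, h2.2.1⟩

theorem tail_lt {σ : V → Bool} {q : Fc X b × ZMod 3} (hq : (h.tri258 π hπ).Bi σ q)
    (hno : ¬ SqArm (nbr X) (colS X π σ (pc π σ (dt q).1)) p r (3 * r))
    (h0 : nsup ((dt q).1 - p) ≤ r) (k : ℕ) :
    nsup ((dt (((h.tri258 π hπ).st σ)^[k] q)).1 - p) < 3 * r := by
  by_contra hcon
  refine hno (arm_of_chain π (v := fun i => (dt (((h.tri258 π hπ).st σ)^[i] q)).1) (k := k)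
    (fun i _ => ?_) (fun i _ => ⟨(dt_mem h _).1, colour_tail h π hπ hq i⟩) h0 (not_lt.1 hcon))
  show _ ∨ nbr X _ (dt (((h.tri258 π hπ).st σ)^[i + 1] q)).1
  rw [iterate_succ', comp_apply]
  exact (step_tail h π hπ (((h.tri258 π hπ).bi_iter i).2 hq)).1

theorem head_lt {σ : V → Bool} {q : Fc X b × ZMod 3} (hq : (h.tri258 π hπ).Bi σ q)
    (hno : ¬ SqArm (nbr X) (colS X π σ (pc π σ (dt q).2.1)) p r (3 * r))
    (h0 : nsup ((dt q).2.1 - p) ≤ r) (k : ℕ) :
    nsup ((dt (((h.tri258 π hπ).st σ)^[k] q)).2.1 - p) < 3 * r := by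
  by_contra hcon
  refine hno (arm_of_chain π (v := fun i => (dt (((h.tri258 π hπ).st σ)^[i] q)).2.1) (k := k)
    (fun i _ => ?_) (fun i _ => ⟨(dt_mem h _).2.1, colour_head h π hπ hq i⟩) h0 (not_lt.1 hcon))
  show _ ∨ nbr X _ (dt (((h.tri258 π hπ).st σ)^[i + 1] q)).2.1
  rw [iterate_succ', comp_apply]
  exact (step_head h π hπ (((h.tri258 π hπ).bi_iter i).2 hq)).1

/-- A face of the sphere with a corner in the good part is local. -/
theorem lf_of_near (hρ : 0 < ρ) (hnet : Net X (closedBall p (6 * r + 2 * ρ)) ρ) {Q : Set ℂ}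
    (hQ : ∀ z, nsup (z - p) < 3 * r + 2 * ρ → z ∈ Q) (hb : ∀ j, 3 * r ≤ nsup (b j - p))
    (q : Fc X b × ZMod 3)
    (hq : nsup ((dt q).1 - p) < 3 * r ∨ nsup ((dt q).2.1 - p) < 3 * r) : LF X Q (dt q) := by
  have hT : Tl X b (dt q).1 (dt q).2.1 (dt q).2.2 := th_Tl q
  have hf : face X (dt q).1 (dt q).2.1 (dt q).2.2 := by
    rcases hT with hf | ⟨j, hu, hv, -⟩
    · exact hf
    · exfalso
      rcases hq with hq | hq
      · rw [hu] at hq
        exact absurd hq (not_lt.2 (hb _))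
      · rw [hv] at hq
        exact absurd hq (not_lt.2 (hb _))
  have hl : LF X univ (dt q) := LF_univ.2 hf
  set R := dist (cc (dt q)) (dt q).1 with hR
  have hR2 : dist (cc (dt q)) (dt q).2.1 = R := (dist_cc1 hl.2.1.ne').symm
  obtain ⟨y, hy, hyR⟩ : ∃ y : ℂ, nsup (y - p) < 3 * r ∧ dist y (cc (dt q)) = R := by
    rcases hq with hq | hq
    · exact ⟨_, hq, by rw [dist_comm]⟩
    · exact ⟨_, hq, by rw [dist_comm, hR2]⟩
  have hRρ : R ≤ ρ := by
    refine Net.empty_disc hρ hnet (x := cc (dt q)) (y := y) ?_ ?_ hyR.le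
    · ext z
      simp only [mem_inter_iff, mem_ball, mem_empty_iff_false, iff_false, not_and]
      intro h1 h2
      have := hl.2.2.2 z h2
      rw [dist_comm] at h1
      linarith
    · rw [mem_closedBall, Complex.dist_eq]
      have := norm_le_nsup (y - p)
      linarith
  refine ⟨hl.1, hl.2.1, fun z hz => hQ z ?_, hl.2.2.2⟩
  rw [mem_closedBall] at hz
  have h1 := nsup_sub_le z y p
  have h2 : dist z y ≤ dist z (cc (dt q)) + dist y (cc (dt q)) := dist_triangle_right _ _ _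
  linarith

/-- **Outer confinement.** No arm of the colour of the tail side, or of the head side, of the
strand of `q` across the annulus: the strand is a loop which is local in the big square. -/
theorem confine [Finite V] (hρ : 0 < ρ) (hnet : Net X (closedBall p (6 * r + 2 * ρ)) ρ)
    {Q : Set ℂ} (hQ : ∀ z, nsup (z - p) < 3 * r + 2 * ρ → z ∈ Q)
    (hb : ∀ j, 3 * r ≤ nsup (b j - p)) {σ : V → Bool} {q : Fc X b × ZMod 3}
    (hq : (h.tri258 π hπ).Bi σ q)
    (hno : (nsup ((dt q).1 - p) ≤ r ∧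
        ¬ SqArm (nbr X) (colS X π σ (pc π σ (dt q).1)) p r (3 * r)) ∨
      (nsup ((dt q).2.1 - p) ≤ r ∧
        ¬ SqArm (nbr X) (colS X π σ (pc π σ (dt q).2.1)) p r (3 * r))) :
    (∀ k, LF X Q (dt (((h.tri258 π hπ).st σ)^[k] q))) ∧ InL X Q (pc π σ) (dt q) := by
  have key : ∀ k, LF X Q (dt (((h.tri258 π hπ).st σ)^[k] q)) := by
    intro k
    refine lf_of_near (p := p) (r := r) hρ hnet hQ hb _ ?_
    rcases hno with ⟨h0, h1⟩ | ⟨h0, h1⟩
    · exact Or.inl (tail_lt h π hπ hq h1 h0 k)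
    · exact Or.inr (head_lt h π hπ hq h1 h0 k)
  exact ⟨key, (inL_iff h π hπ).2 ⟨hq, key⟩⟩

/-- The same with one colour `c` for which there is no arm: both ends of the dart are in the
inner square. -/
theorem confine' [Finite V] (hρ : 0 < ρ) (hnet : Net X (closedBall p (6 * r + 2 * ρ)) ρ)
    {Q : Set ℂ} (hQ : ∀ z, nsup (z - p) < 3 * r + 2 * ρ → z ∈ Q)
    (hb : ∀ j, 3 * r ≤ nsup (b j - p)) {σ : V → Bool} {c : Bool}
    (hno : ¬ SqArm (nbr X) (colS X π σ c) p r (3 * r)) {q : Fc X b × ZMod 3}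
    (hq : (h.tri258 π hπ).Bi σ q) (h0 : nsup ((dt q).1 - p) ≤ r)
    (h1 : nsup ((dt q).2.1 - p) ≤ r) :
    (∀ k, LF X Q (dt (((h.tri258 π hπ).st σ)^[k] q))) ∧ InL X Q (pc π σ) (dt q) := by
  refine confine h π hπ hρ hnet hQ hb hq ?_
  have hne := (bi_iff h π hπ σ q).1 hq
  by_cases hc : pc π σ (dt q).1 = c
  · rw [← hc] at hno
    exact Or.inl ⟨h0, hno⟩
  · have hc' : pc π σ (dt q).2.1 = c := by
      revert hne hc
      cases pc π σ (dt q).1 <;> cases pc π σ (dt q).2.1 <;> cases c <;> simp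
    rw [← hc'] at hno
    exact Or.inr ⟨h1, hno⟩

end strand

/-! ### The block event -/

/-- A good annulus of the configuration `T` excludes arms in every larger triangulation which
agrees with `T` in the window. -/
theorem no_arm_of_not_bad {X W : Set ℂ} {T : Set Pt} {c : Bool} {p : ℂ} {r : ℝ} (hr : 0 < r)
    (hX : X ∩ An p (r / 2) (4 * r) = pts T ∩ An p (r / 2) (4 * r))
    (hW : W ∩ An p (r / 2) (4 * r) ⊆ ofCol T c) (hbad : ¬ BadAnn c p r T) {a d : ℝ}
    (ha : a ≤ r) (hd : 3 * r ≤ d) : ¬ SqArm (nbr X) W p a d := by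
  intro harm
  unfold BadAnn at hbad
  rw [not_or, not_not] at hbad
  obtain ⟨hN, hno⟩ := hbad
  set U := An p (r / 2) (4 * r) with hU
  have hNU : Nice (pts T ∩ U) p r := hN.mono subset_rfl hr
  have hNU' : Nice (X ∩ U) p r := by rw [hX]; exact hNU
  have hNX : Nice X p r := hNU'.mono (fun z hz => hz.1.1) hr
  obtain ⟨n, v, h1, h2, h3, h4⟩ := hNX.reduce hr ha hd harm
  refine hno ⟨n, v, fun i hi => ?_, fun i hi => ?_, h3, h4⟩
  · have e1 := (nbr_inter (U := U) subset_rfl hr hNU' (h2 i hi.le).2.1 (h2 i hi.le).2.2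
      (h2 (i + 1) hi).2.1 (h2 (i + 1) hi).2.2).1 (h1 i hi)
    rw [hX] at e1
    exact (nbr_inter (U := U) subset_rfl hr hNU (h2 i hi.le).2.1 (h2 i hi.le).2.2
      (h2 (i + 1) hi).2.1 (h2 (i + 1) hi).2.2).2 e1
  · refine hW ⟨(h2 i hi).1, ?_, ?_⟩
    · linarith [(h2 i hi).2.1]
    · linarith [(h2 i hi).2.2]

end Vale.Agent.P148.R2.H664
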